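import Vale.Agent.P235.H134.Grid.Defs

/-!
# Graphs drawn in the plane with one crossing (helper783)
-/

set_option autoImplicit false

namespace Vale.Agent.P235.XC.H783

/-- `H` is drawn in the plane with one crossing: the vertices are distinct points `p a`, every edge
`g` is an arc `γ g` (a continuous injective image of `[0,1]`) joining the two ends of `g`, an arc
contains no vertex except its ends, two different arcs meet only in vertices and in the origin,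
where the two edges `e` and `f` cross: the middle third of `e` is the segment from `(-1,0)` to
`(1,0)`, the middle third of `f` is the segment from `(0,-1)` to `(0,1)`, and everything else of the
drawing is outside the square `|x|, |y| ≤ 1`. -/
def OneX {W : Type} (H : SimpleGraph W) : Prop :=
  ∃ (p : W → ℝ × ℝ) (γ : Sym2 W → ℝ → ℝ × ℝ) (e f : Sym2 W), e ∈ H.edgeSet ∧ f ∈ H.edgeSet ∧
    e ≠ f ∧ Function.Injective p ∧
    (∀ g ∈ H.edgeSet, ContinuousOn (γ g) (Set.Icc 0 1) ∧ Set.InjOn (γ g) (Set.Icc 0 1)) ∧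
    (∀ a b, H.Adj a b → ({γ s(a, b) 0, γ s(a, b) 1} : Set (ℝ × ℝ)) = {p a, p b}) ∧
    (∀ g ∈ H.edgeSet, ∀ a, p a ∈ γ g '' Set.Icc 0 1 → a ∈ g) ∧
    (∀ g ∈ H.edgeSet, ∀ g' ∈ H.edgeSet, g ≠ g' →
      γ g '' Set.Icc 0 1 ∩ γ g' '' Set.Icc 0 1 ⊆ Set.range p ∪ {0}) ∧
    (∀ x ∈ Set.Icc (1 / 3 : ℝ) (2 / 3), γ e x = (6 * x - 3, 0) ∧ γ f x = (0, 6 * x - 3)) ∧
    (∀ a, 1 < ‖p a‖) ∧
    (∀ g ∈ H.edgeSet, ∀ x ∈ Set.Icc (0 : ℝ) 1, ‖γ g x‖ ≤ 1 →
      (g = e ∨ g = f) ∧ x ∈ Set.Icc (1 / 3 : ℝ) (2 / 3))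

end Vale.Agent.P235.XC.H783
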