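import Vale.Agent.P235.XC.H218.Univ
import Vale.Agent.P235.XC.H783.OneXDef
import Vale.Agent.P235.XC.H237.Mono
import Vale.Agent.P235.H205.Grid.PlanarStmt

/-!
# Graphs drawn in the plane with at most one crossing are minors of `TX r` (helper783)
-/

set_option autoImplicit false

namespace Vale.Agent.P235.XC.H783

open SimpleGraph Vale.Agent.P235.H134 Filter Topology
open Vale.Agent.P235.H205 Vale.Agent.P235.H218K5 Vale.Agent.P235.XC.H218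

/-! ## The inversion -/

/-- the inversion of the sup norm, followed by the map of `[-1,1]²` to `[0,1]²` -/
noncomputable def inv (z : ℝ × ℝ) : ℝ × ℝ :=
  (1 / 2 + z.1 / (2 * ‖z‖ ^ 2), 1 / 2 + z.2 / (2 * ‖z‖ ^ 2))

theorem inv_cont : ContinuousOn inv {z | z ≠ 0} := by
  have h : ∀ z ∈ {z : ℝ × ℝ | z ≠ 0}, 2 * ‖z‖ ^ 2 ≠ 0 := by
    intro z hz
    have : 0 < ‖z‖ := norm_pos_iff.2 hz
    positivity
  refine ContinuousOn.prodMk (continuousOn_const.add (continuous_fst.continuousOn.div ?_ h))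
    (continuousOn_const.add (continuous_snd.continuousOn.div ?_ h))
  · exact (continuous_const.mul (continuous_norm.pow 2)).continuousOn
  · exact (continuous_const.mul (continuous_norm.pow 2)).continuousOn

theorem inv_inj : Set.InjOn inv {z | z ≠ 0} := by
  intro z hz w hw h
  have hz0 : 0 < ‖z‖ := norm_pos_iff.2 hz
  have hw0 : 0 < ‖w‖ := norm_pos_iff.2 hw
  have h1 : z.1 / (2 * ‖z‖ ^ 2) = w.1 / (2 * ‖w‖ ^ 2) := by
    have := congrArg Prod.fst h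
    simp only [inv] at this
    linarith
  have h2 : z.2 / (2 * ‖z‖ ^ 2) = w.2 / (2 * ‖w‖ ^ 2) := by
    have := congrArg Prod.snd h
    simp only [inv] at this
    linarith
  have h3 : (2 * ‖z‖ ^ 2)⁻¹ • z = (2 * ‖w‖ ^ 2)⁻¹ • w := by
    refine Prod.ext ?_ ?_
    · simp only [Prod.smul_fst, smul_eq_mul]
      rw [inv_mul_eq_div, inv_mul_eq_div]
      exact h1
    · simp only [Prod.smul_snd, smul_eq_mul]
      rw [inv_mul_eq_div, inv_mul_eq_div]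
      exact h2
  have hn : ∀ u : ℝ × ℝ, 0 < ‖u‖ → ‖(2 * ‖u‖ ^ 2)⁻¹ • u‖ = (2 * ‖u‖)⁻¹ := by
    intro u hu
    rw [norm_smul, Real.norm_of_nonneg (by positivity)]
    field_simp
  have h4 : ‖z‖ = ‖w‖ := by
    have h5 := congrArg norm h3
    rw [hn z hz0, hn w hw0] at h5
    have h6 := inv_injective h5
    linarith
  rw [h4] at h3
  exact smul_right_injective _ (by positivity : (2 * ‖w‖ ^ 2)⁻¹ ≠ 0) h3

theorem inv_sq {z : ℝ × ℝ} (hz : 1 ≤ ‖z‖) : inv z ∈ Set.Icc (0 : ℝ) 1 ×ˢ Set.Icc (0 : ℝ) 1 := by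
  have h2 : ‖z‖ ≤ ‖z‖ ^ 2 := by nlinarith
  have hp : 0 < 2 * ‖z‖ ^ 2 := by positivity
  have key : ∀ x : ℝ, |x| ≤ ‖z‖ → 0 ≤ 1 / 2 + x / (2 * ‖z‖ ^ 2) ∧ 1 / 2 + x / (2 * ‖z‖ ^ 2) ≤ 1 := by
    intro x hx
    obtain ⟨h3, h4⟩ := abs_le.1 (hx.trans h2)
    have h5 : x / (2 * ‖z‖ ^ 2) ≤ 1 / 2 := by
      rw [div_le_iff₀ hp]; linarith
    have h6 : -(1 / 2) ≤ x / (2 * ‖z‖ ^ 2) := by
      rw [le_div_iff₀ hp]; linarith
    constructor <;> linarith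
  have n1 : |z.1| ≤ ‖z‖ := norm_fst_le z
  have n2 : |z.2| ≤ ‖z‖ := norm_snd_le z
  exact ⟨key _ n1, key _ n2⟩

/-! ## The ends of an arc -/

theorem near0 {η : ℝ → ℝ × ℝ} (hc : ContinuousOn η (Set.Icc 0 (1 / 3))) {δ : ℝ} (hδ : 0 < δ) :
    ∃ s ∈ Set.Ioc (0 : ℝ) (1 / 3), dist (η s) (η 0) ≤ δ := by
  have hcw : Tendsto η (𝓝[Set.Icc 0 (1 / 3)] 0) (𝓝 (η 0)) := hc 0 ⟨le_refl _, by norm_num⟩
  have hle : 𝓝[>] (0 : ℝ) ≤ 𝓝[Set.Icc 0 (1 / 3)] 0 := by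
    rw [nhdsWithin_le_iff]
    exact mem_of_superset (Ioc_mem_nhdsGT (by norm_num)) Set.Ioc_subset_Icc_self
  have h2 : ∀ᶠ s in 𝓝[>] (0 : ℝ), dist (η s) (η 0) < δ :=
    (hcw.mono_left hle).eventually (Metric.ball_mem_nhds _ hδ)
  have h3 : ∀ᶠ s in 𝓝[>] (0 : ℝ), s ∈ Set.Ioc (0 : ℝ) (1 / 3) :=
    Ioc_mem_nhdsGT (by norm_num)
  obtain ⟨s, hs1, hs2⟩ := (h2.and h3).exists
  exact ⟨s, hs2, hs1.le⟩

theorem near1 {η : ℝ → ℝ × ℝ} (hc : ContinuousOn η (Set.Icc (2 / 3) 1)) {δ : ℝ} (hδ : 0 < δ) :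
    ∃ t ∈ Set.Ico (2 / 3 : ℝ) 1, dist (η t) (η 1) ≤ δ := by
  have hcw : Tendsto η (𝓝[Set.Icc (2 / 3) 1] 1) (𝓝 (η 1)) := hc 1 ⟨by norm_num, le_refl _⟩
  have hle : 𝓝[<] (1 : ℝ) ≤ 𝓝[Set.Icc (2 / 3) 1] 1 := by
    rw [nhdsWithin_le_iff]
    exact mem_of_superset (Ico_mem_nhdsLT (by norm_num)) Set.Ico_subset_Icc_self
  have h2 : ∀ᶠ s in 𝓝[<] (1 : ℝ), dist (η s) (η 1) < δ :=
    (hcw.mono_left hle).eventually (Metric.ball_mem_nhds _ hδ)
  have h3 : ∀ᶠ s in 𝓝[<] (1 : ℝ), s ∈ Set.Ico (2 / 3 : ℝ) 1 :=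
    Ico_mem_nhdsLT (by norm_num)
  obtain ⟨s, hs1, hs2⟩ := (h2.and h3).exists
  exact ⟨s, hs2, hs1.le⟩

/-- the parameters used: all of `[0,1]`, or without the middle third -/
def Dom (b : Prop) : Set ℝ := {x | x ∈ Set.Icc (0 : ℝ) 1 ∧ (b → x ≤ 1 / 3 ∨ 2 / 3 ≤ x)}

theorem dom_closed (b : Prop) : IsClosed (Dom b) := by
  by_cases hb : b
  · have e : Dom b = Set.Icc (0 : ℝ) 1 ∩ (Set.Iic (1 / 3) ∪ Set.Ici (2 / 3)) := by
      ext x; simp [Dom, hb]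
    rw [e]
    exact isClosed_Icc.inter (isClosed_Iic.union isClosed_Ici)
  · have e : Dom b = Set.Icc (0 : ℝ) 1 := by
      ext x; simp [Dom, hb]
    rw [e]
    exact isClosed_Icc

theorem dom_lo {b : Prop} {s x : ℝ} (hs : 0 ≤ s) (hx : x ∈ Set.Icc s (1 / 3)) : x ∈ Dom b :=
  ⟨⟨hs.trans hx.1, hx.2.trans (by norm_num)⟩, fun _ => Or.inl hx.2⟩

theorem dom_hi {b : Prop} {t x : ℝ} (ht : t ≤ 1) (hx : x ∈ Set.Icc (2 / 3) t) : x ∈ Dom b :=
  ⟨⟨le_trans (by norm_num) hx.1, hx.2.trans ht⟩, fun _ => Or.inr hx.1⟩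

/-! ## The model -/

theorem tx_g {n : ℕ} (x y : Fin (n + 1) × Fin (n + 1)) (hxy : (grid (n + 1)).Adj x y) :
    (TX (n + 1)).Adj (Sum.inr x) (Sum.inr y) := by
  rw [TX, SimpleGraph.fromRel_adj]
  exact ⟨fun e => hxy.ne (Sum.inr_injective e), Or.inl (Or.inr (Or.inr ⟨x, y, hxy, rfl, rfl⟩))⟩

theorem tx_0 {n : ℕ} (x : Fin (n + 1) × Fin (n + 1)) (hx : x.1.val = 0 ∨ x.1.val = n) :
    (TX (n + 1)).Adj (Sum.inl 0) (Sum.inr x) := by
  rw [TX, SimpleGraph.fromRel_adj]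
  exact ⟨Sum.inl_ne_inr, Or.inl (Or.inl ⟨x, hx.imp_right fun h => by omega, rfl, rfl⟩)⟩

theorem tx_1 {n : ℕ} (x : Fin (n + 1) × Fin (n + 1)) (hx : x.2.val = 0 ∨ x.2.val = n) :
    (TX (n + 1)).Adj (Sum.inl 1) (Sum.inr x) := by
  rw [TX, SimpleGraph.fromRel_adj]
  exact ⟨Sum.inl_ne_inr,
    Or.inl (Or.inr (Or.inl ⟨x, hx.imp_right fun h => by omega, rfl, rfl⟩))⟩

/-- two connected sets joined through a new vertex -/
theorem con_hub {U : Type} {T : SimpleGraph U} {A B : Set U} {h x y : U} (hA : Con T A)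
    (hB : Con T B) (hx : x ∈ A) (hy : y ∈ B) (h1 : T.Adj h x) (h2 : T.Adj h y) :
    Con T (A ∪ B ∪ {h}) := by
  have h3 : Con T (A ∪ {h}) := hA.union (con_singleton T h) ⟨x, hx, h, rfl, h1.symm⟩
  have h4 : Con T (A ∪ {h} ∪ B) := h3.union hB ⟨h, Or.inr rfl, y, hy, h2⟩
  have e : A ∪ B ∪ {h} = A ∪ {h} ∪ B := by
    ext z; simp only [Set.mem_union, Set.mem_singleton_iff]; tauto
  rw [e]; exact h4

theorem leg_model (W : Type) [Finite W] (H : SimpleGraph W) (p : W → ℝ × ℝ)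
    (γ : Sym2 W → ℝ → ℝ × ℝ) (e f : Sym2 W) (he0 : e ∈ H.edgeSet) (hf0 : f ∈ H.edgeSet)
    (hef : e ≠ f) (hp : Function.Injective p)
    (hpS : ∀ v, p v ∈ Set.Icc (0 : ℝ) 1 ×ˢ Set.Icc (0 : ℝ) 1)
    (hγ : ∀ g ∈ H.edgeSet, ContinuousOn (γ g) (Dom (g = e ∨ g = f)) ∧
      Set.InjOn (γ g) (Dom (g = e ∨ g = f)))
    (hγS : ∀ g ∈ H.edgeSet, γ g '' Dom (g = e ∨ g = f) ⊆ Set.Icc (0 : ℝ) 1 ×ˢ Set.Icc (0 : ℝ) 1)
    (hend : ∀ a b, H.Adj a b → ({γ s(a, b) 0, γ s(a, b) 1} : Set (ℝ × ℝ)) = {p a, p b})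
    (hmem : ∀ g ∈ H.edgeSet, ∀ a, p a ∈ γ g '' Dom (g = e ∨ g = f) → a ∈ g)
    (hinter : ∀ g ∈ H.edgeSet, ∀ g' ∈ H.edgeSet, g ≠ g' →
      γ g '' Dom (g = e ∨ g = f) ∩ γ g' '' Dom (g' = e ∨ g' = f) ⊆ Set.range p)
    (he1 : (γ e (1 / 3)).1 = 0) (he2 : (γ e (2 / 3)).1 = 1)
    (hf1 : (γ f (1 / 3)).2 = 0) (hf2 : (γ f (2 / 3)).2 = 1) :
    ∃ r : ℕ, 2 ≤ r ∧ IsMinor H (TX r) := by
  have : Finite (Sym2 W) := by
    have := Fintype.ofFinite W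
    classical infer_instance
  obtain ⟨D, hDdef⟩ : ∃ D : Sym2 W → Set ℝ, ∀ g, D g = Dom (g = e ∨ g = f) := ⟨_, fun _ => rfl⟩
  simp only [← hDdef] at hγ hγS hmem hinter
  have hDc : ∀ g, IsCompact (D g) := by
    intro g
    rw [hDdef]
    exact isCompact_Icc.of_isClosed_subset (dom_closed _) fun x hx => hx.1
  have hlo : ∀ g, Set.Icc (0 : ℝ) (1 / 3) ⊆ D g := fun g x hx => by
    rw [hDdef]; exact dom_lo (le_refl _) hx
  have hhi : ∀ g, Set.Icc (2 / 3 : ℝ) 1 ⊆ D g := fun g x hx => by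
    rw [hDdef]; exact dom_hi (le_refl _) hx
  have h0D : ∀ g, (0 : ℝ) ∈ D g := fun g => hlo g ⟨le_refl _, by norm_num⟩
  have h1D : ∀ g, (1 : ℝ) ∈ D g := fun g => hhi g ⟨by norm_num, le_refl _⟩
  have hends : ∀ g ∈ H.edgeSet, ∀ a ∈ g, p a = γ g 0 ∨ p a = γ g 1 := by
    intro g hg a ha
    obtain ⟨b, rfl⟩ := Sym2.mem_iff_exists.1 ha
    have h2 := hend a b (by simpa using hg)
    have h3 : p a ∈ ({γ s(a, b) 0, γ s(a, b) 1} : Set (ℝ × ℝ)) := by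
      rw [h2]
      exact Or.inl rfl
    exact h3
  -- choice of `δ`
  have hδ1 : ∀ᶠ δ in 𝓝[>] (0 : ℝ), ∀ a b, a ≠ b → 4 * δ < dist (p a) (p b) := by
    refine eventually_all.2 fun a => eventually_all.2 fun b => ?_
    by_cases hab : a = b
    · exact Eventually.of_forall fun _ h => absurd hab h
    · exact (eventually_mul_lt _ 4 (dist_pos.2 (hp.ne hab))).mono fun _ h _ => h
  have hδ2 : ∀ᶠ δ in 𝓝[>] (0 : ℝ), ∀ g, g ∈ H.edgeSet → ∀ a, a ∉ g →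
      ∀ y ∈ γ g '' D g, 2 * δ < dist (p a) y := by
    refine eventually_all.2 fun g => ?_
    by_cases hg : g ∈ H.edgeSet
    swap
    · exact Eventually.of_forall fun _ h => absurd h hg
    have h2 : ∀ᶠ δ in 𝓝[>] (0 : ℝ), ∀ a, a ∉ g → ∀ y ∈ γ g '' D g, 2 * δ < dist (p a) y := by
      refine eventually_all.2 fun a => ?_
      by_cases ha : a ∈ g
      · exact Eventually.of_forall fun _ h => absurd ha h
      have hcl : IsClosed (γ g '' D g) := ((hDc g).image_of_continuousOn (hγ g hg).1).isClosed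
      have hne : (γ g '' D g).Nonempty := ⟨γ g 0, 0, h0D g, rfl⟩
      have hpos : 0 < Metric.infDist (p a) (γ g '' D g) :=
        (hcl.notMem_iff_infDist_pos hne).1 fun h => ha (hmem g hg a h)
      exact (eventually_mul_lt _ 2 hpos).mono fun δ h _ y hy =>
        lt_of_lt_of_le h (Metric.infDist_le_dist_of_mem hy)
    exact h2.mono fun _ h _ => h
  obtain ⟨δ, ⟨hδ1, hδ2⟩, hδ⟩ := ((hδ1.and hδ2).and (self_mem_nhdsWithin :
    Set.Ioi (0 : ℝ) ∈ 𝓝[>] (0 : ℝ))).exists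
  replace hδ : 0 < δ := hδ
  -- the inner parts
  have hst : ∀ g : Sym2 W, ∃ s t : ℝ, 0 < s ∧ s ≤ 1 / 3 ∧ 2 / 3 ≤ t ∧ t < 1 ∧
      (g ∈ H.edgeSet → dist (γ g s) (γ g 0) ≤ δ ∧ dist (γ g t) (γ g 1) ≤ δ) := by
    intro g
    by_cases hg : g ∈ H.edgeSet
    · obtain ⟨s, hs, hs'⟩ := near0 ((hγ g hg).1.mono (hlo g)) hδ
      obtain ⟨t, ht, ht'⟩ := near1 ((hγ g hg).1.mono (hhi g)) hδ
      exact ⟨s, t, hs.1, hs.2, ht.1, ht.2, fun _ => ⟨hs', ht'⟩⟩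
    · exact ⟨1 / 3, 2 / 3, by norm_num, by norm_num, by norm_num, by norm_num,
        fun h => absurd h hg⟩
  choose s t hs0 hs1 ht0 ht1 hstd using hst
  obtain ⟨K, hKdef⟩ : ∃ K : Sym2 W → Set (ℝ × ℝ), ∀ g, K g = γ g '' (D g ∩ Set.Icc (s g) (t g)) :=
    ⟨_, fun _ => rfl⟩
  have hKsub : ∀ g, K g ⊆ γ g '' D g := by
    intro g
    rw [hKdef]
    exact Set.image_mono Set.inter_subset_left
  have hKc : ∀ g ∈ H.edgeSet, IsCompact (K g) := by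
    intro g hg
    rw [hKdef]
    exact ((hDc g).inter_right isClosed_Icc).image_of_continuousOn
      ((hγ g hg).1.mono Set.inter_subset_left)
  have hKp : ∀ g ∈ H.edgeSet, ∀ a, p a ∉ K g := by
    intro g hg a ha
    have ha' : a ∈ g := hmem g hg a (hKsub g ha)
    rw [hKdef] at ha
    obtain ⟨x, ⟨hx, hx'⟩, hxa⟩ := ha
    rcases hends g hg a ha' with h | h
    · have := (hγ g hg).2 hx (h0D g) (hxa.trans h)
      rw [this] at hx'
      exact absurd hx'.1 (not_le.2 (hs0 g))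
    · have := (hγ g hg).2 hx (h1D g) (hxa.trans h)
      rw [this] at hx'
      exact absurd hx'.2 (not_le.2 (ht1 g))
  have hsK : ∀ g, γ g (s g) ∈ K g := by
    intro g
    rw [hKdef]
    exact ⟨s g, ⟨hlo g ⟨(hs0 g).le, hs1 g⟩, le_refl _, by linarith [hs1 g, ht0 g]⟩, rfl⟩
  have htK : ∀ g, γ g (t g) ∈ K g := by
    intro g
    rw [hKdef]
    exact ⟨t g, ⟨hhi g ⟨ht0 g, (ht1 g).le⟩, by linarith [hs1 g, ht0 g], le_refl _⟩, rfl⟩
  have hKnear : ∀ g ∈ H.edgeSet, ∀ a ∈ g, ∃ y ∈ K g, dist y (p a) ≤ δ := by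
    intro g hg a ha
    rcases hends g hg a ha with h | h
    · exact ⟨_, hsK g, by rw [h]; exact (hstd g hg).1⟩
    · exact ⟨_, htK g, by rw [h]; exact (hstd g hg).2⟩
  -- choice of `ε`
  have hε1 : ∀ᶠ ε in 𝓝[>] (0 : ℝ), ∀ g g', g ∈ H.edgeSet → g' ∈ H.edgeSet → g ≠ g' →
      ∀ y ∈ K g, ∀ y' ∈ K g', ε < dist y y' := by
    refine eventually_all.2 fun g => eventually_all.2 fun g' => ?_
    by_cases he : g ∈ H.edgeSet ∧ g' ∈ H.edgeSet ∧ g ≠ g'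
    swap
    · exact Eventually.of_forall fun _ h h' h'' => absurd ⟨h, h', h''⟩ he
    obtain ⟨hg, hg', hgg⟩ := he
    have hd : Disjoint (K g) (K g') := by
      rw [Set.disjoint_left]
      intro y hy hy'
      obtain ⟨a, rfl⟩ := hinter g hg g' hg' hgg ⟨hKsub g hy, hKsub g' hy'⟩
      exact hKp g hg a hy
    obtain ⟨ρ, hρ, hρ'⟩ := Metric.exists_pos_forall_lt_edist (hKc g hg) (hKc g' hg').isClosed hd
    have hρ0 : (0 : ℝ) < ρ := NNReal.coe_pos.2 hρ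
    refine (eventually_mul_lt (ρ : ℝ) 1 hρ0).mono fun ε h _ _ _ y hy y' hy' => ?_
    rw [one_mul] at h
    refine h.trans ?_
    have h3 := hρ' y hy y' hy'
    rw [edist_nndist] at h3
    have h4 : ρ < nndist y y' := by exact_mod_cast h3
    exact_mod_cast h4
  have hε2 : ∀ᶠ ε in 𝓝[>] (0 : ℝ), 1 * ε < δ := eventually_mul_lt _ _ hδ
  have htend : Tendsto (fun n : ℕ => 1 / ((n : ℝ) + 1)) atTop (𝓝[>] (0 : ℝ)) :=
    tendsto_nhdsWithin_iff.2 ⟨tendsto_one_div_add_atTop_nhds_zero_nat,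
      Eventually.of_forall fun n => by
        have : (0 : ℝ) < (n : ℝ) + 1 := by positivity
        exact one_div_pos.2 this⟩
  obtain ⟨n, ⟨hε1, hε2⟩, hn1⟩ :=
    ((htend.eventually (hε1.and hε2)).and (eventually_ge_atTop 1)).exists
  have hn : (0 : ℝ) < (n : ℝ) + 1 := by positivity
  obtain ⟨ε, hεdef⟩ : ∃ ε : ℝ, ε = 1 / ((n : ℝ) + 1) := ⟨_, rfl⟩
  rw [← hεdef] at hε1 hε2
  have hε : 0 < ε := hεdef ▸ one_div_pos.2 hn
  rw [one_mul] at hε2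
  have hnε : ((n : ℝ) + 1) * ε = 1 := by rw [hεdef]; field_simp
  -- the box
  set Sq : Set (ℝ × ℝ) := Set.Icc (0 : ℝ) 1 ×ˢ Set.Icc (0 : ℝ) 1 with hSq
  have hcov : ∀ z ∈ Sq, ∃ i j : Fin (n + 1), InSq 0 ε z i j := by
    rintro z ⟨⟨h1, h2⟩, h3, h4⟩
    obtain ⟨i, hi⟩ := cov1 n h1 h2
    obtain ⟨j, hj⟩ := cov1 n h3 h4
    rw [← hεdef] at hi hj
    exact ⟨i, j, hi, hj⟩
  have hpB : ∀ v, p v ∈ Metric.closedBall (p v) δ ∩ Sq := fun v =>
    ⟨Metric.mem_closedBall_self hδ.le, hpS v⟩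
  have hin : ∀ {x y : Fin (n + 1) × Fin (n + 1)}, (grid (n + 1)).Adj x y →
      (TX (n + 1)).Adj (Sum.inr x) (Sum.inr y) := fun {x y} h => tx_g x y h
  have hcell : ∀ S : Set (ℝ × ℝ), IsPreconnected S → S.Nonempty → S ⊆ Sq →
      Con (TX (n + 1)) (Sum.inr '' cells (n + 1) 0 ε S) := fun S h1 h2 h3 =>
    con_image _ tx_g (con_iff.1 (cells_connected hε h1 h2 fun z hz => hcov z (h3 hz)))
  have hcellU : ∀ S S' : Set (ℝ × ℝ), cells (n + 1) 0 ε (S ∪ S') =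
      cells (n + 1) 0 ε S ∪ cells (n + 1) 0 ε S' := by
    intro S S'
    ext q
    constructor
    · rintro ⟨z, hz | hz, h⟩
      · exact Or.inl ⟨z, hz, h⟩
      · exact Or.inr ⟨z, hz, h⟩
    · rintro (⟨z, hz, h⟩ | ⟨z, hz, h⟩)
      · exact ⟨z, Or.inl hz, h⟩
      · exact ⟨z, Or.inr hz, h⟩
  -- the two pieces of `e` and `f`
  have hpieces : ∀ g, (g = e ∨ g = f) → K g = γ g '' Set.Icc (s g) (1 / 3) ∪
      γ g '' Set.Icc (2 / 3) (t g) := by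
    intro g hg
    rw [hKdef, ← Set.image_union]
    congr 1
    ext x
    rw [hDdef]
    constructor
    · rintro ⟨⟨hx, hx'⟩, hx1, hx2⟩
      rcases hx' hg with h | h
      · exact Or.inl ⟨hx1, h⟩
      · exact Or.inr ⟨h, hx2⟩
    · rintro (⟨h1, h2⟩ | ⟨h1, h2⟩)
      · exact ⟨dom_lo (hs0 g).le ⟨h1, h2⟩, h1, by linarith [ht0 g]⟩
      · exact ⟨dom_hi (ht1 g).le ⟨h1, h2⟩, by linarith [hs1 g], h2⟩
  have hP1 : ∀ g ∈ H.edgeSet, Con (TX (n + 1))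
      (Sum.inr '' cells (n + 1) 0 ε (γ g '' Set.Icc (s g) (1 / 3))) := by
    intro g hg
    have hsub : Set.Icc (s g) (1 / 3) ⊆ D g := fun x hx => hlo g ⟨(hs0 g).le.trans hx.1, hx.2⟩
    exact hcell _ (isPreconnected_Icc.image _ ((hγ g hg).1.mono hsub))
      ⟨_, s g, ⟨le_refl _, hs1 g⟩, rfl⟩ ((Set.image_mono hsub).trans (hγS g hg))
  have hP2 : ∀ g ∈ H.edgeSet, Con (TX (n + 1))
      (Sum.inr '' cells (n + 1) 0 ε (γ g '' Set.Icc (2 / 3) (t g))) := by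
    intro g hg
    have hsub : Set.Icc (2 / 3) (t g) ⊆ D g := fun x hx => hhi g ⟨hx.1, hx.2.trans (ht1 g).le⟩
    exact hcell _ (isPreconnected_Icc.image _ ((hγ g hg).1.mono hsub))
      ⟨_, t g, ⟨ht0 g, le_refl _⟩, rfl⟩ ((Set.image_mono hsub).trans (hγS g hg))
  obtain ⟨Kc, hKcdef⟩ : ∃ Kc : Sym2 W → Set (Fin 2 ⊕ (Fin (n + 1) × Fin (n + 1))), ∀ g, Kc g =
      Sum.inr '' cells (n + 1) 0 ε (K g) ∪ {x | x = Sum.inl 0 ∧ g = e} ∪
        {x | x = Sum.inl 1 ∧ g = f} := ⟨_, fun _ => rfl⟩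
  have h13 : (1 / 3 : ℝ) ∈ Set.Icc (0 : ℝ) (1 / 3) := ⟨by norm_num, le_refl _⟩
  have h23 : (2 / 3 : ℝ) ∈ Set.Icc (2 / 3 : ℝ) 1 := ⟨le_refl _, by norm_num⟩
  have hKcon : ∀ g ∈ H.edgeSet, Con (TX (n + 1)) (Kc g) := by
    intro g hg
    rw [hKcdef]
    by_cases hge : g = e
    · subst hge
      have e2 : {x : Fin 2 ⊕ (Fin (n + 1) × Fin (n + 1)) | x = Sum.inl 1 ∧ g = f} = ∅ := by
        ext x; simp [hef]
      have e3 : {x : Fin 2 ⊕ (Fin (n + 1) × Fin (n + 1)) | x = Sum.inl 0 ∧ g = g} =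
          {Sum.inl 0} := by
        ext x; simp
      rw [e2, e3, Set.union_empty, hpieces g (Or.inl rfl), hcellU, Set.image_union]
      obtain ⟨i, j, hij⟩ := hcov _ (hγS g hg ⟨1 / 3, hlo g h13, rfl⟩)
      obtain ⟨i', j', hij'⟩ := hcov _ (hγS g hg ⟨2 / 3, hhi g h23, rfl⟩)
      refine con_hub (hP1 g hg) (hP2 g hg) (x := Sum.inr (0, j)) (y := Sum.inr (Fin.last n, j'))
        ⟨(0, j), ⟨γ g (1 / 3), ⟨1 / 3, ⟨hs1 g, le_refl _⟩, rfl⟩, ⟨?_, ?_⟩, hij.2⟩, rfl⟩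
        ⟨(Fin.last n, j'), ⟨γ g (2 / 3), ⟨2 / 3, ⟨le_refl _, ht0 g⟩, rfl⟩, ⟨?_, ?_⟩, hij'.2⟩, rfl⟩
        (tx_0 _ (Or.inl rfl)) (tx_0 _ (Or.inr rfl))
      · rw [he1]; simp
      · rw [he1]; simp only [Fin.val_zero, Nat.cast_zero]; linarith
      · rw [he2]; simp only [Fin.val_last]; linarith
      · rw [he2]; simp only [Fin.val_last]; linarith
    by_cases hgf : g = f
    · subst hgf
      have e2 : {x : Fin 2 ⊕ (Fin (n + 1) × Fin (n + 1)) | x = Sum.inl 0 ∧ g = e} = ∅ := by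
        ext x; simp [hge]
      have e3 : {x : Fin 2 ⊕ (Fin (n + 1) × Fin (n + 1)) | x = Sum.inl 1 ∧ g = g} =
          {Sum.inl 1} := by
        ext x; simp
      rw [e2, e3, Set.union_empty, hpieces g (Or.inr rfl), hcellU, Set.image_union]
      obtain ⟨i, j, hij⟩ := hcov _ (hγS g hg ⟨1 / 3, hlo g h13, rfl⟩)
      obtain ⟨i', j', hij'⟩ := hcov _ (hγS g hg ⟨2 / 3, hhi g h23, rfl⟩)
      refine con_hub (hP1 g hg) (hP2 g hg) (x := Sum.inr (i, 0)) (y := Sum.inr (i', Fin.last n))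
        ⟨(i, 0), ⟨γ g (1 / 3), ⟨1 / 3, ⟨hs1 g, le_refl _⟩, rfl⟩, hij.1, ?_, ?_⟩, rfl⟩
        ⟨(i', Fin.last n), ⟨γ g (2 / 3), ⟨2 / 3, ⟨le_refl _, ht0 g⟩, rfl⟩, hij'.1, ?_, ?_⟩, rfl⟩
        (tx_1 _ (Or.inl rfl)) (tx_1 _ (Or.inr rfl))
      · rw [hf1]; simp
      · rw [hf1]; simp only [Fin.val_zero, Nat.cast_zero]; linarith
      · rw [hf2]; simp only [Fin.val_last]; linarith
      · rw [hf2]; simp only [Fin.val_last]; linarith
    · have e1 : {x : Fin 2 ⊕ (Fin (n + 1) × Fin (n + 1)) | x = Sum.inl 0 ∧ g = e} = ∅ := by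
        ext x; simp [hge]
      have e2 : {x : Fin 2 ⊕ (Fin (n + 1) × Fin (n + 1)) | x = Sum.inl 1 ∧ g = f} = ∅ := by
        ext x; simp [hgf]
      rw [e1, e2, Set.union_empty, Set.union_empty]
      have hDg : D g = Set.Icc 0 1 := by
        rw [hDdef]; ext x; simp [Dom, hge, hgf]
      have hsub : Set.Icc (s g) (t g) ⊆ D g := by
        rw [hDg]
        exact Set.Icc_subset_Icc (hs0 g).le (ht1 g).le
      have hKg : K g = γ g '' Set.Icc (s g) (t g) := by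
        rw [hKdef, Set.inter_eq_right.2 hsub]
      rw [hKg]
      exact hcell _ (isPreconnected_Icc.image _ ((hγ g hg).1.mono hsub))
        ⟨_, s g, ⟨le_refl _, by linarith [hs1 g, ht0 g]⟩, rfl⟩
        ((Set.image_mono hsub).trans (hγS g hg))
  refine ⟨n + 1, by omega, Vale.Agent.P235.H62.planarComb _ W (TX (n + 1)) H
    (fun v => Sum.inr '' cells (n + 1) 0 ε (Metric.closedBall (p v) δ ∩ Sq)) Kc ?_ ?_ ?_ ?_ ?_⟩
  · intro v
    exact con_iff.2 (hcell _ ((convex_closedBall _ _).inter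
      ((convex_Icc _ _).prod (convex_Icc _ _))).isPreconnected ⟨p v, hpB v⟩
      Set.inter_subset_right)
  · intro a b hab
    rw [Set.disjoint_left]
    rintro _ ⟨q, ⟨z, ⟨hz, -⟩, hzq⟩, rfl⟩ ⟨q', ⟨w, ⟨hw, -⟩, hwq⟩, hqq⟩
    rw [Sum.inr_injective hqq] at hwq
    have h1 := hδ1 a b hab
    have h2 := hzq.dist_le hwq
    rw [Metric.mem_closedBall] at hz hw
    have h3 := dist_triangle (p a) z (p b)
    have h4 := dist_triangle z w (p b)
    rw [_root_.dist_comm] at hz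
    linarith
  · intro g hg
    exact con_iff.2 (hKcon g hg)
  · intro g hg g' hg' hgg
    rw [Set.disjoint_left, hKcdef, hKcdef]
    rintro x ((⟨q, ⟨z, hz, hzq⟩, rfl⟩ | ⟨rfl, h⟩) | ⟨rfl, h⟩)
      ((⟨q', ⟨w, hw, hwq⟩, hqq⟩ | ⟨h', h''⟩) | ⟨h', h''⟩)
    · rw [Sum.inr_injective hqq] at hwq
      exact absurd (hzq.dist_le hwq) (not_le.2 (hε1 g g' hg hg' hgg z hz w hw))
    · cases h'
    · cases h'
    · cases hqq
    · exact hgg (h.trans h''.symm)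
    · exact absurd (Sum.inl_injective h') (by decide)
    · cases hqq
    · exact absurd (Sum.inl_injective h') (by decide)
    · exact hgg (h.trans h''.symm)
  · intro g hg a
    constructor
    · intro ha
      obtain ⟨y, hy, hya⟩ := hKnear g hg a ha
      have hyS := hγS g hg (hKsub g hy)
      obtain ⟨i, j, hij⟩ := hcov y hyS
      refine ⟨Sum.inr (i, j), ⟨(i, j), ⟨y, ⟨hya, hyS⟩, hij⟩, rfl⟩, ?_⟩
      rw [hKcdef]
      exact Or.inl (Or.inl ⟨(i, j), ⟨y, hy, hij⟩, rfl⟩)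
    · rintro ⟨_, ⟨q, ⟨z, ⟨hz, -⟩, hzq⟩, rfl⟩, hq⟩
      rw [hKcdef] at hq
      rcases hq with (⟨q', ⟨w, hw, hwq⟩, hqq⟩ | ⟨h', -⟩) | ⟨h', -⟩
      · rw [Sum.inr_injective hqq] at hwq
        by_contra ha
        have h1 := hδ2 g hg a ha w (hKsub g hw)
        have h2 := hzq.dist_le hwq
        rw [Metric.mem_closedBall] at hz
        have h3 := dist_triangle (p a) z w
        rw [_root_.dist_comm] at hz
        linarith
      · cases h'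
      · cases h'

/-- A finite graph drawn in the plane with one crossing is a minor of `TX r` for some `r`. -/
theorem onex {W : Type} [Finite W] (H : SimpleGraph W) (h : OneX H) :
    ∃ r : ℕ, 2 ≤ r ∧ IsMinor H (TX r) := by
  obtain ⟨p, γ, e, f, he, hf, hef, hp, hγ, hend, hmem, hinter, hmid, hout, hsq⟩ := h
  have hp0 : ∀ a, p a ≠ 0 := fun a ha => by
    have := hout a
    rw [ha, norm_zero] at this
    linarith
  have a13 : (1 / 3 : ℝ) ∈ Set.Icc (1 / 3 : ℝ) (2 / 3) := ⟨le_refl _, by norm_num⟩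
  have a23 : (2 / 3 : ℝ) ∈ Set.Icc (1 / 3 : ℝ) (2 / 3) := ⟨by norm_num, le_refl _⟩
  have e13 : γ e (1 / 3) = (-1, 0) := by rw [(hmid _ a13).1]; norm_num
  have e23 : γ e (2 / 3) = (1, 0) := by rw [(hmid _ a23).1]; norm_num
  have f13 : γ f (1 / 3) = (0, -1) := by rw [(hmid _ a13).2]; norm_num
  have f23 : γ f (2 / 3) = (0, 1) := by rw [(hmid _ a23).2]; norm_num
  have n1 : ‖((-1 : ℝ), (0 : ℝ))‖ = 1 := by simp [Prod.norm_def]
  have n2 : ‖((1 : ℝ), (0 : ℝ))‖ = 1 := by simp [Prod.norm_def]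
  have n3 : ‖((0 : ℝ), (-1 : ℝ))‖ = 1 := by simp [Prod.norm_def]
  have n4 : ‖((0 : ℝ), (1 : ℝ))‖ = 1 := by simp [Prod.norm_def]
  have hge1 : ∀ g ∈ H.edgeSet, ∀ x ∈ Dom (g = e ∨ g = f), 1 ≤ ‖γ g x‖ := by
    intro g hg x hx
    by_contra hlt
    rw [not_le] at hlt
    obtain ⟨h1, h2⟩ := hsq g hg x hx.1 hlt.le
    have h3 : x = 1 / 3 ∨ x = 2 / 3 := by
      rcases hx.2 h1 with h | h
      · exact Or.inl (le_antisymm h h2.1)
      · exact Or.inr (le_antisymm h2.2 h)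
    rcases h1 with rfl | rfl <;> rcases h3 with rfl | rfl
    · rw [e13, n1] at hlt; linarith
    · rw [e23, n2] at hlt; linarith
    · rw [f13, n3] at hlt; linarith
    · rw [f23, n4] at hlt; linarith
  have hne : ∀ g ∈ H.edgeSet, ∀ x ∈ Dom (g = e ∨ g = f), γ g x ≠ 0 := by
    intro g hg x hx h0
    have := hge1 g hg x hx
    rw [h0, norm_zero] at this
    linarith
  refine leg_model W H (fun a => inv (p a)) (fun g x => inv (γ g x)) e f he hf hef ?_ ?_ ?_ ?_ ?_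
    ?_ ?_ ?_ ?_ ?_ ?_
  · intro a b hab
    exact hp (inv_inj (hp0 a) (hp0 b) hab)
  · exact fun v => inv_sq (hout v).le
  · intro g hg
    refine ⟨inv_cont.comp ((hγ g hg).1.mono fun x hx => hx.1) fun x hx => hne g hg x hx, ?_⟩
    intro x hx y hy hxy
    exact (hγ g hg).2 hx.1 hy.1 (inv_inj (hne g hg x hx) (hne g hg y hy) hxy)
  · rintro g hg _ ⟨x, hx, rfl⟩
    exact inv_sq (hge1 g hg x hx)
  · intro a b hab
    have h1 := congrArg (fun S => inv '' S) (hend a b hab)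
    simp only [Set.image_pair] at h1
    exact h1
  · rintro g hg a ⟨x, hx, hxa⟩
    exact hmem g hg a ⟨x, hx.1, inv_inj (hne g hg x hx) (hp0 a) hxa⟩
  · rintro g hg g' hg' hgg _ ⟨⟨x, hx, rfl⟩, y, hy, hxy⟩
    have h1 : γ g' y = γ g x := inv_inj (hne g' hg' y hy) (hne g hg x hx) hxy
    rcases hinter g hg g' hg' hgg ⟨⟨x, hx.1, rfl⟩, y, hy.1, h1⟩ with ⟨a, ha⟩ | h0
    · exact ⟨a, by simp only [ha]⟩
    · exact absurd h0 (hne g hg x hx)
  · simp only [e13, inv, n1]; norm_num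
  · simp only [e23, inv, n2]; norm_num
  · simp only [f13, inv, n3]; norm_num
  · simp only [f23, inv, n4]; norm_num

/-- A finite planar graph is a minor of `TX r` for some `r`. -/
theorem planar_tx {W : Type} [Finite W] (H : SimpleGraph W) (h : Planar H) :
    ∃ r : ℕ, 2 ≤ r ∧ IsMinor H (TX r) := by
  obtain ⟨r, hr, hm⟩ := Vale.Agent.P235.H205.planar W H h
  obtain ⟨k, rfl⟩ : ∃ k, r = k + 1 := ⟨r - 1, by omega⟩
  refine ⟨k + 1 + 1, by omega, Vale.Agent.P235.H56.minor_trans hm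
    (Vale.Agent.P235.H56.minor_trans ?_ (Vale.Agent.P235.XC.H237.mono (Nat.le_succ (k + 1))))⟩
  refine ⟨fun x => {Sum.inr x}, fun x => con_iff.2 (con_singleton _ _), ?_, ?_⟩
  · intro a b hab
    rw [Set.disjoint_singleton]
    exact fun h => hab (Sum.inr_injective h)
  · intro a b hab
    exact ⟨_, rfl, _, rfl, tx_g a b hab⟩

/-- `H` can be drawn in the plane with at most one crossing. -/
def AtMostOneX {W : Type} (H : SimpleGraph W) : Prop := Planar H ∨ OneX H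

/-- [XD] A finite graph drawn in the plane with at most one crossing is a minor of `TX r` for some
`r`. -/
theorem draw {W : Type} [Finite W] (H : SimpleGraph W) (h : AtMostOneX H) :
    ∃ r : ℕ, 2 ≤ r ∧ IsMinor H (TX r) :=
  h.elim (planar_tx H) (onex H)

end Vale.Agent.P235.XC.H783
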